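import Vale.Agent.P159.TM.H146.Two

/-!
# P159, T1, row R6: the arm of two copies from the three numbers of one copy
-/

open scoped ENNReal
open Finset

set_option linter.unusedSectionVars false

namespace Vale.Agent.P159.TM.H146

open Vale.Agent.P159.TM.H60 Vale.Agent.P159.TM.H576 Vale.Agent.P159.TM.H426
open Vale.Agent.P159 Vale.Agent.P159.H353
open Vale.Agent.P159.TM.H77 Vale.Agent.P159.TM.H504
open Vale.Agent.P159.TM.SpecC (ms)

variable {N : ℕ} [NeZero N]

/-- uniform weight on a box of the torus -/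
noncomputable def bet (N : ℕ) (p q : ℤ) (L : ℕ) (v : ZMod N × ZMod N) : ℝ :=
  if v ∈ (Bx p q L).image (pt N) then 1 / (L : ℝ) ^ 2 else 0

theorem sum_bet {p q : ℤ} {L : ℕ} (hL : L ≤ N) (hL0 : 1 ≤ L) (u : ZMod N × ZMod N → ℝ) :
    ∑ v, bet N p q L v * u v = bav N p q L u := by
  unfold bet
  simp only [ite_mul, zero_mul]
  rw [sum_ite_mem, univ_inter, ← mul_sum, sum_img hL hL0 u]
  have : (0 : ℝ) < (L : ℝ) ^ 2 := by
    have : (0 : ℝ) < L := by exact_mod_cast hL0
    positivity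
  field_simp

theorem σ2_eq {b : ℝ} (hb : 0 ≤ b) (ξ : ℕ) : Spec.σ2 N b ξ hb 0 =
    two (H459.tS (N := N)) H459.tT (fun _ => wI b) (fun _ n => wI_nonneg hb n)
      (fun _ => T1.H897.logC_wI hb) (ga (ms (ξ : ℝ))) (fun _ _ => (Real.exp_pos _).le) := by
  unfold Spec.σ2 Spec.kT
  simp only [aT_eq]

/-- **the arm from the numbers of one copy** -/
theorem arm_num {b : ℝ} (hb : 0 ≤ b) {ξ : ℕ} {p q p' q' : ℤ} {L : ℕ} (hL1 : 1 ≤ L)
    (hLN : L ≤ N)
    (hd : Disjoint ((Bx p q L).image (pt N)) ((Bx p' q' L).image (pt N)))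
    {V K4 C1 : ℝ} (hV : 0 < V) (hK : 0 < K4) (hC : 2 * C1 ≤ V)
    (s0 : Summable fun h : ZMod N × ZMod N → ℤ =>
      W1h H459.tS H459.tT (fun _ => wI b) (ga (ms (ξ : ℝ))) h)
    (s2 : Summable fun h : ZMod N × ZMod N → ℤ =>
      W1h H459.tS H459.tT (fun _ => wI b) (ga (ms (ξ : ℝ))) h *
        (bav N p q L fun x => (h x : ℝ)) ^ 2)
    (s4 : Summable fun h : ZMod N × ZMod N → ℤ =>
      W1h H459.tS H459.tT (fun _ => wI b) (ga (ms (ξ : ℝ))) h *
        (bav N p q L fun x => (h x : ℝ)) ^ 4)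
    (sI : Summable fun h : ZMod N × ZMod N → ℤ =>
      W1h H459.tS H459.tT (fun _ => wI b) (ga (ms (ξ : ℝ))) h *
        ((bav N p q L fun x => (h x : ℝ)) - bav N p' q' L fun x => (h x : ℝ)) ^ 2)
    (h2 : V * ∑' h : ZMod N × ZMod N → ℤ,
        W1h H459.tS H459.tT (fun _ => wI b) (ga (ms (ξ : ℝ))) h ≤
      ∑' h : ZMod N × ZMod N → ℤ, W1h H459.tS H459.tT (fun _ => wI b) (ga (ms (ξ : ℝ))) h *
        (bav N p q L fun x => (h x : ℝ)) ^ 2)
    (h4 : ∑' h : ZMod N × ZMod N → ℤ, W1h H459.tS H459.tT (fun _ => wI b) (ga (ms (ξ : ℝ))) h *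
        (bav N p q L fun x => (h x : ℝ)) ^ 4 ≤ K4 * V ^ 2 * ∑' h : ZMod N × ZMod N → ℤ,
        W1h H459.tS H459.tT (fun _ => wI b) (ga (ms (ξ : ℝ))) h)
    (hI : ∑' h : ZMod N × ZMod N → ℤ, W1h H459.tS H459.tT (fun _ => wI b) (ga (ms (ξ : ℝ))) h *
        ((bav N p q L fun x => (h x : ℝ)) - bav N p' q' L fun x => (h x : ℝ)) ^ 2 ≤
      C1 * ∑' h : ZMod N × ZMod N → ℤ,
        W1h H459.tS H459.tT (fun _ => wI b) (ga (ms (ξ : ℝ))) h) :
    Ex (Spec.σ2 N b ξ hb 0) (fun _ _ => 1) ≤ ENNReal.ofReal (32 * K4) *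
      Ex (Spec.σ2 N b ξ hb 0) (fun x om => ind (Joins H459.tS H459.tT
        (plus (Spec.σ2 N b ξ hb 0) x om) ((Bx p q L).image (pt N)) ((Bx p' q' L).image (pt N)))) := by
  rw [σ2_eq]
  set σ := two (H459.tS (N := N)) H459.tT (fun _ => wI b) (fun _ n => wI_nonneg hb n)
      (fun _ => T1.H897.logC_wI hb) (ga (ms (ξ : ℝ))) (fun _ _ => (Real.exp_pos _).le) with hσ
  have hw0 : ∀ (_ : Spec.E N) (n : ℤ), 0 ≤ wI b n := fun _ n => wI_nonneg hb n
  have ha : ∀ (v : ZMod N × ZMod N) (n : ℤ), 0 ≤ ga (ms (ξ : ℝ)) v n :=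
    fun _ _ => (Real.exp_pos _).le
  have he : ∀ (_ : Spec.E N) (n : ℤ), wI b (-n) = wI b n := fun _ n => wI_neg _ n
  have hae : ∀ (v : ZMod N × ZMod N) (n : ℤ), ga (ms (ξ : ℝ)) v (-n) = ga (ms (ξ : ℝ)) v n := by
    intro v n
    unfold ga
    simp
  set Zr := ∑' h : ZMod N × ZMod N → ℤ,
        W1h H459.tS H459.tT (fun _ => wI b) (ga (ms (ξ : ℝ))) h with hZr
  have hZ0 : 0 ≤ Zr := tsum_nonneg fun h => W1h_nonneg hw0 ha h
  have eZ : (A1 (H459.tS (N := N)) H459.tT (fun _ => wI b) (ga (ms (ξ : ℝ))) fun _ => 1) =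
      ENNReal.ofReal Zr := A1_one hw0 ha s0
  have e1 : Ex σ (fun _ _ => 1) = ENNReal.ofReal Zr * ENNReal.ofReal Zr := by
    rw [← eZ]
    exact two_one
  have lin0 : ∀ h : ZMod N × ZMod N → ℤ, (∑ v, bet N p q L v * (h v : ℝ)) =
      bav N p q L fun x => (h x : ℝ) := fun h => sum_bet hLN hL1 fun x => (h x : ℝ)
  have lin1 : ∀ h : ZMod N × ZMod N → ℤ, (∑ v, bet N p' q' L v * (h v : ℝ)) =
      bav N p' q' L fun x => (h x : ℝ) := fun h => sum_bet hLN hL1 fun x => (h x : ℝ)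
  have odd0 : ∀ (p q : ℤ) (h : ZMod N × ZMod N → ℤ), (bav N p q L fun x => ((-h) x : ℝ)) =
      -bav N p q L fun x => (h x : ℝ) := by
    intro p q h
    have := bav_neg N p q L h
    simpa using this
  have prX : ∀ (β : ZMod N × ZMod N → ℝ) (x : ZMod N × ZMod N → ℤ × ℤ), σ.pr β univ x =
      (∑ v, β v * ((x v).1 : ℝ)) - ∑ v, β v * ((x v).2 : ℝ) := fun β x => pr_two β x
  have key := arm_plus σ (β := bet N p q L) (β' := bet N p' q' L)
    (B := (Bx p q L).image (pt N)) (B' := (Bx p' q' L).image (pt N))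
    (fun v hv => if_neg hv) (fun v hv => if_neg hv) hd (W := 2 * V) (K := 4 * K4) (by positivity)
    (by positivity) (by rw [e1]; exact ENNReal.mul_ne_top ENNReal.ofReal_ne_top ENNReal.ofReal_ne_top)
    ?_ ?_ ?_
  · have : 8 * (4 * K4) = 32 * K4 := by ring
    rw [this] at key
    exact key
  · -- second moment
    have e2 : Ex σ (fun x _ => ENNReal.ofReal ((σ.pr (bet N p q L) univ x) ^ 2)) =
        2 * (ENNReal.ofReal Zr * ENNReal.ofReal (∑' h : ZMod N × ZMod N → ℤ,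
          W1h H459.tS H459.tT (fun _ => wI b) (ga (ms (ξ : ℝ))) h *
            (bav N p q L fun x => (h x : ℝ)) ^ 2)) := by
      have h3 := two_sq (s := H459.tS (N := N)) (t := H459.tT) (w := fun _ => wI b) (hw0 := hw0)
        (hw := fun _ => T1.H897.logC_wI hb) (a := ga (ms (ξ : ℝ))) (ha := ha) he hae
        (X := fun h => bav N p q L fun x => (h x : ℝ)) (fun h => odd0 p q h)
      rw [eZ, A1_real hw0 ha (fun h => sq_nonneg _) s2] at h3
      rw [← h3]
      refine Ex_congr fun x om _ => ?_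
      rw [prX, lin0 (fun v => (x v).1), lin0 (fun v => (x v).2)]
    rw [e1, e2, ENNReal.ofReal_mul (by norm_num : (0 : ℝ) ≤ 2)]
    simp only [ENNReal.ofReal_ofNat]
    calc 2 * ENNReal.ofReal V * (ENNReal.ofReal Zr * ENNReal.ofReal Zr)
        = 2 * (ENNReal.ofReal Zr * ENNReal.ofReal (V * Zr)) := by
          rw [ENNReal.ofReal_mul hV.le]
          ring
      _ ≤ _ := by gcongr
  · -- increment
    have e2 : Ex σ (fun x _ => ENNReal.ofReal ((σ.pr (bet N p q L) univ x -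
        σ.pr (bet N p' q' L) univ x) ^ 2)) =
        2 * (ENNReal.ofReal Zr * ENNReal.ofReal (∑' h : ZMod N × ZMod N → ℤ,
          W1h H459.tS H459.tT (fun _ => wI b) (ga (ms (ξ : ℝ))) h *
            ((bav N p q L fun x => (h x : ℝ)) - bav N p' q' L fun x => (h x : ℝ)) ^ 2)) := by
      have h3 := two_sq (s := H459.tS (N := N)) (t := H459.tT) (w := fun _ => wI b) (hw0 := hw0)
        (hw := fun _ => T1.H897.logC_wI hb) (a := ga (ms (ξ : ℝ))) (ha := ha) he hae
        (X := fun h => (bav N p q L fun x => (h x : ℝ)) - bav N p' q' L fun x => (h x : ℝ))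
        (fun h => by
          show (bav N p q L fun x => ((-h) x : ℝ)) - (bav N p' q' L fun x => ((-h) x : ℝ)) = _
          rw [odd0, odd0]
          ring)
      rw [eZ, A1_real hw0 ha (fun h => sq_nonneg _) sI] at h3
      rw [← h3]
      refine Ex_congr fun x om _ => ?_
      rw [prX, prX, lin0 (fun v => (x v).1), lin0 (fun v => (x v).2),
        lin1 (fun v => (x v).1), lin1 (fun v => (x v).2)]
      congr 2
      ring
    rw [e1, e2]
    calc 2 * (ENNReal.ofReal Zr * ENNReal.ofReal (∑' h : ZMod N × ZMod N → ℤ,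
          W1h H459.tS H459.tT (fun _ => wI b) (ga (ms (ξ : ℝ))) h *
            ((bav N p q L fun x => (h x : ℝ)) - bav N p' q' L fun x => (h x : ℝ)) ^ 2))
        ≤ 2 * (ENNReal.ofReal Zr * ENNReal.ofReal (V / 2 * Zr)) := by
          gcongr
          refine hI.trans ?_
          exact mul_le_mul_of_nonneg_right (by linarith) hZ0
      _ = ENNReal.ofReal (2 * (V / 2)) * (ENNReal.ofReal Zr * ENNReal.ofReal Zr) := by
          rw [ENNReal.ofReal_mul (by positivity), ENNReal.ofReal_mul (by norm_num : (0 : ℝ) ≤ 2)]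
          simp only [ENNReal.ofReal_ofNat]
          ring
      _ = _ := by
          congr 2
          ring
  · -- fourth moment
    have e2 : Ex σ (fun x _ => ENNReal.ofReal ((σ.pr (bet N p q L) univ x) ^ 4)) ≤
        16 * (ENNReal.ofReal Zr * ENNReal.ofReal (∑' h : ZMod N × ZMod N → ℤ,
          W1h H459.tS H459.tT (fun _ => wI b) (ga (ms (ξ : ℝ))) h *
            (bav N p q L fun x => (h x : ℝ)) ^ 4)) := by
      have h3 := two_four (s := H459.tS (N := N)) (t := H459.tT) (w := fun _ => wI b) (hw0 := hw0)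
        (hw := fun _ => T1.H897.logC_wI hb) (a := ga (ms (ξ : ℝ))) (ha := ha)
        (X := fun h => bav N p q L fun x => (h x : ℝ))
      rw [eZ, A1_real hw0 ha (fun h => by positivity) s4] at h3
      refine le_trans (le_of_eq ?_) h3
      refine Ex_congr fun x om _ => ?_
      rw [prX, lin0 (fun v => (x v).1), lin0 (fun v => (x v).2)]
    rw [e1]
    refine e2.trans ?_
    calc 16 * (ENNReal.ofReal Zr * ENNReal.ofReal (∑' h : ZMod N × ZMod N → ℤ,
          W1h H459.tS H459.tT (fun _ => wI b) (ga (ms (ξ : ℝ))) h *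
            (bav N p q L fun x => (h x : ℝ)) ^ 4))
        ≤ 16 * (ENNReal.ofReal Zr * ENNReal.ofReal (K4 * V ^ 2 * Zr)) := by gcongr
      _ = ENNReal.ofReal (16 * (K4 * V ^ 2)) * (ENNReal.ofReal Zr * ENNReal.ofReal Zr) := by
          rw [ENNReal.ofReal_mul (by positivity : (0 : ℝ) ≤ K4 * V ^ 2),
            ENNReal.ofReal_mul (by norm_num : (0 : ℝ) ≤ 16)]
          simp only [ENNReal.ofReal_ofNat]
          ring
      _ = _ := by
          congr 2
          ring

end Vale.Agent.P159.TM.H146
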