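import Vale.Agent.P159.TM.H426.Pp
import Vale.Agent.P159.TM.H103.Back
import Vale.Agent.P159.TM.H121.Out
import Vale.Agent.P159.TM.H77.TailTor
import Vale.Agent.P159.TM.H60.Arm

/-!
# P159, T1, row R6: an arm of the torus lifts to an arm of the fine lattice
-/

open Finset

set_option linter.unusedSectionVars false

namespace Vale.Agent.P159.TM.H146

open Vale.Agent.P159.TM.H60 Vale.Agent.P159.TM.H459
open Vale.Agent.P159.TM.H426 (Lf red)
open Vale.Agent.P159.TM.H103 (pr pr_e1 pr_e2 nnm)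
open Vale.Agent.P159.TM.H504 (Bx)
open Vale.Agent.P159.TM.H77 (pt)
open Vale.Agent.P159.TM.H576 (plus)
open Vale.Agent.P145.FB (NN NC rc mem_rc)

variable {N : ℕ} [NeZero N] {D : Spec.V N → ℤ} {T : Finset (Spec.E N)}

lemma lf_vert {a b : ℤ} (h : 0 < D (pr N a b)) : (2 * a, 2 * b) ∈ Lf D T := by
  refine Or.inl ⟨by simp, by simp, ?_⟩
  have e1 : red N (2 * a, 2 * b) = pr N a b := by
    unfold red pr
    rw [show (2 * a, 2 * b).1 / 2 = a by simp, show (2 * a, 2 * b).2 / 2 = b by simp]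
  rw [e1]
  exact h

lemma lf_hor {a b : ℤ} (h : (pr N a b, true) ∈ T) : (2 * a + 1, 2 * b) ∈ Lf D T := by
  refine Or.inr (Or.inl ⟨by dsimp only; omega, by simp, ?_⟩)
  have e1 : red N (2 * a + 1, 2 * b) = pr N a b := by
    unfold red pr
    rw [show (2 * a + 1, 2 * b).1 / 2 = a by dsimp only; omega,
      show (2 * a + 1, 2 * b).2 / 2 = b by simp]
  rw [e1]
  exact h

lemma lf_ver {a b : ℤ} (h : (pr N a b, false) ∈ T) : (2 * a, 2 * b + 1) ∈ Lf D T := by
  refine Or.inr (Or.inr ⟨by simp, by dsimp only; omega, ?_⟩)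
  have e1 : red N (2 * a, 2 * b + 1) = pr N a b := by
    unfold red pr
    rw [show (2 * a, 2 * b + 1).1 / 2 = a by simp,
      show (2 * a, 2 * b + 1).2 / 2 = b by dsimp only; omega]
  rw [e1]
  exact h

/-- lifting of an open path -/
theorem lift_path (hT : ∀ e ∈ T, 0 < D (tS e) ∧ 0 < D (tT e)) {a b : ℤ} (h0 : 0 < D (pr N a b))
    {z : Spec.V N} (h : Conn tS tT T (pr N a b) z) :
    ∃ a' b' : ℤ, z = pr N a' b' ∧ NC (Lf D T) (2 * a, 2 * b) (2 * a', 2 * b') := by
  induction h with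
  | refl => exact ⟨a, b, rfl, NC.refl (lf_vert h0)⟩
  | @tail y z _ h2 ih =>
    obtain ⟨a', b', rfl, h3⟩ := ih
    obtain ⟨⟨e, c⟩, he, h4⟩ := h2
    obtain ⟨d1, d2⟩ := hT _ he
    rcases h4 with ⟨h7, h8⟩ | ⟨h7, h8⟩
    · have h9 : e = pr N a' b' := h7
      subst h9
      cases c with
      | true =>
        have h10 : z = pr N (a' + 1) b' := by rw [← h8]; exact pr_e1 a' b'
        subst h10
        refine ⟨a' + 1, b', rfl, ?_⟩
        rw [h8] at d2
        exact (h3.tail (nnm (by omega)) (lf_hor he)).tail (nnm (by omega)) (lf_vert d2)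
      | false =>
        have h10 : z = pr N a' (b' + 1) := by rw [← h8]; exact pr_e2 a' b'
        subst h10
        refine ⟨a', b' + 1, rfl, ?_⟩
        rw [h8] at d2
        exact (h3.tail (nnm (by omega)) (lf_ver he)).tail (nnm (by omega)) (lf_vert d2)
    · have h9 : e = z := h7
      subst h9
      cases c with
      | true =>
        have h10 : e = pr N (a' - 1) b' := by
          have k0 : e + dir N true = pr N (a' - 1 + 1) b' := by
            rw [sub_add_cancel]; exact h8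
          rw [← pr_e1] at k0
          exact add_right_cancel k0
        subst h10
        refine ⟨a' - 1, b', rfl, ?_⟩
        have k1 : (2 * (a' - 1) + 1, 2 * b') ∈ Lf D T := lf_hor he
        exact (h3.tail (nnm (by omega)) k1).tail (nnm (by omega)) (lf_vert d1)
      | false =>
        have h10 : e = pr N a' (b' - 1) := by
          have k0 : e + dir N false = pr N a' (b' - 1 + 1) := by
            rw [sub_add_cancel]; exact h8
          rw [← pr_e2] at k0
          exact add_right_cancel k0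
        subst h10
        refine ⟨a', b' - 1, rfl, ?_⟩
        have k1 : (2 * a', 2 * (b' - 1) + 1) ∈ Lf D T := lf_ver he
        exact (h3.tail (nnm (by omega)) k1).tail (nnm (by omega)) (lf_vert d1)

/-- **an arm of the torus lifts to an arm of the fine lattice** -/
theorem out_of_joins {t : ℕ} (ht : 1 ≤ t) (hN : 6 * t ≤ N)
    (hT : ∀ e ∈ T, 0 < D (tS e) ∧ 0 < D (tT e))
    (h : Joins tS tT T ((Bx 0 0 t).image (pt N)) ((Bx (3 * t) 0 t).image (pt N))) :
    H121.Out (t : ℤ) (Lf D T) := by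
  obtain ⟨u, hu, v, hv, hc⟩ := h
  rw [mem_image] at hu hv
  obtain ⟨z0, hz0, rfl⟩ := hu
  obtain ⟨z1, hz1, rfl⟩ := hv
  rw [Bx, mem_product, mem_Ico, mem_Ico] at hz0 hz1
  have hc' : Conn tS tT T (pr N z0.1 z0.2) (pt N z1) := mem_clus.1 hc
  have hcong : ∀ {a c : ℤ}, ((a : ℤ) : ZMod N) = ((c : ℤ) : ZMod N) → ∃ k : ℤ, a = c + N * k := by
    intro a c h
    rw [ZMod.intCast_eq_intCast_iff_dvd_sub] at h
    obtain ⟨k, hk⟩ := h
    exact ⟨-k, by rw [mul_neg]; omega⟩
  have hNt : (6 * t : ℤ) ≤ N := by exact_mod_cast hN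
  have ht' : (1 : ℤ) ≤ t := by exact_mod_cast ht
  -- the horizontal coordinate of a lift of the end point
  have far : ∀ a : ℤ, ((a : ℤ) : ZMod N) = ((z1.1 : ℤ) : ZMod N) → 2 * (t : ℤ) ≤ a ∨
      a ≤ -(2 * (t : ℤ)) := by
    intro a h
    obtain ⟨k, hk⟩ := hcong h
    rcases le_or_gt 0 k with h1 | h1
    · left
      have : 0 ≤ (N : ℤ) * k := mul_nonneg (by omega) h1
      omega
    · right
      have : (N : ℤ) * k ≤ (N : ℤ) * (-1) := mul_le_mul_of_nonneg_left (by omega) (by omega)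
      omega
  have h0 : 0 < D (pr N z0.1 z0.2) := by
    rcases Relation.ReflTransGen.cases_head hc' with h1 | ⟨w, ⟨e, he, h2⟩, _⟩
    · exfalso
      have h3 : ((z0.1 : ℤ) : ZMod N) = ((z1.1 : ℤ) : ZMod N) := congrArg Prod.fst h1
      have := far z0.1 h3
      omega
    · obtain ⟨d1, d2⟩ := hT e he
      rcases h2 with ⟨h3, _⟩ | ⟨_, h3⟩
      · rwa [h3] at d1
      · rwa [h3] at d2
  obtain ⟨a', b', h1, h2⟩ := lift_path hT h0 hc'
  have h3 : ((z1.1 : ℤ) : ZMod N) = ((a' : ℤ) : ZMod N) := congrArg Prod.fst h1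
  refine ⟨_, _, h2, ?_, ?_⟩
  · rw [mem_rc]
    omega
  · have := far a' h3.symm
    unfold H121.nrm
    omega

/-- the same for the positive open edges of two copies -/
theorem out_of_plus {t : ℕ} (ht : 1 ≤ t) (hN : 6 * t ≤ N) {b : ℝ} (hb : 0 ≤ b) (ξ : ℕ)
    (f : Spec.V N → ℝ) (x : Spec.V N → ℤ × ℤ) (om : Finset (Spec.E N))
    (h : Joins tS tT (plus (Spec.σ2 N b ξ hb f) x om) ((Bx 0 0 t).image (pt N))
      ((Bx (3 * t) 0 t).image (pt N))) :
    H121.Out (t : ℤ) (Lf (fun v => (x v).1 - (x v).2) (plus (Spec.σ2 N b ξ hb f) x om)) := by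
  refine out_of_joins ht hN (fun e he => ?_) h
  unfold plus at he
  rw [mem_filter] at he
  exact he.2

end Vale.Agent.P159.TM.H146
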