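import Vale.Agent.P159.TM.H146.Num
import Vale.Agent.P159.TM.H146.Up
import Vale.Agent.P159.TM.H77.Win
import Vale.Agent.P159.TM.H285.Circ

/-!
# P159, T1, row R6: the arms of the two-copy torus law, and the circuits

`armTor`: the arm has a probability chosen before `A`, at every scale `ξ / (200 A) ≤ t ≤ ξ / A`.
-/

open scoped ENNReal
open Finset

namespace Vale.Agent.P159.TM.H146

open Vale.Agent.P159.TM.H60 Vale.Agent.P159.TM.H576 Vale.Agent.P159.TM.H426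
open Vale.Agent.P159.TM.H459 (tS tT)
open Vale.Agent.P159 Vale.Agent.P159.H353
open Vale.Agent.P159.TM.H77 Vale.Agent.P159.TM.H504
open Vale.Agent.P159.TM.SpecC (ms)

/-- two boxes of the torus at distance `2t` are disjoint -/
theorem box_disj {N t : ℕ} (hN : 6 * t ≤ N) :
    Disjoint ((Bx 0 0 t).image (pt N)) ((Bx (0 + 3 * (t : ℤ)) 0 t).image (pt N)) := by
  rw [Finset.disjoint_left]
  intro u hu hv
  rw [mem_image] at hu hv
  obtain ⟨z0, hz0, rfl⟩ := hu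
  obtain ⟨z1, hz1, h⟩ := hv
  rw [Bx, mem_product, mem_Ico, mem_Ico] at hz0 hz1
  have h1 : ((z1.1 : ℤ) : ZMod N) = ((z0.1 : ℤ) : ZMod N) := congrArg Prod.fst h
  have := cast_inj_Ico (p := 0) N le_rfl (mem_Ico.2 ⟨by omega, by omega⟩)
    (mem_Ico.2 ⟨by omega, by omega⟩) h1
  omega

/-- the probability of the arm from the bound on the integrals -/
theorem p_out {N : ℕ} [NeZero N] {b : ℝ} (hb : 0 < b) {ξ : ℕ} (hξ : 0 < ξ) {t : ℕ} (ht : 1 ≤ t)
    (hN : 6 * t ≤ N) {K : ℝ} (hK : 0 < K)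
    (h : Ex (Spec.σ2 N b ξ hb.le 0) (fun _ _ => 1) ≤ ENNReal.ofReal K *
      Ex (Spec.σ2 N b ξ hb.le 0) (fun x om => ind (Joins tS tT
        (plus (Spec.σ2 N b ξ hb.le 0) x om) ((Bx 0 0 t).image (pt N))
          ((Bx (0 + 3 * (t : ℤ)) 0 t).image (pt N))))) :
    1 / K ≤ (ppT N b ξ hb hξ).p (H121.Out (t : ℤ)) := by
  have M := H857.fk_T hb hξ (0 : Spec.V N → ℝ)
  have h1 : Ex (Spec.σ2 N b ξ hb.le 0) (fun x om => ind (Joins tS tT
        (plus (Spec.σ2 N b ξ hb.le 0) x om) ((Bx 0 0 t).image (pt N))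
          ((Bx (0 + 3 * (t : ℤ)) 0 t).image (pt N)))) ≤ eQ N b ξ hb.le 0 (H121.Out (t : ℤ)) := by
    refine Ex_mono fun x om _ => ind_mono fun hj => ?_
    rw [zero_add] at hj
    exact out_of_plus ht hN hb.le ξ 0 x om hj
  rw [ppT_p]
  unfold pQ
  rw [← ENNReal.ofReal_le_iff_le_toReal (quot_ne_top hb.le 0 _),
    ENNReal.le_div_iff_mul_le (Or.inl M.Z0) (Or.inl M.Zt)]
  calc ENNReal.ofReal (1 / K) * Ex (Spec.σ2 N b ξ hb.le 0) (fun _ _ => 1)
      ≤ ENNReal.ofReal (1 / K) * (ENNReal.ofReal K * eQ N b ξ hb.le 0 (H121.Out (t : ℤ))) := by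
        gcongr
        exact h.trans (mul_le_mul_right h1 _)
    _ = eQ N b ξ hb.le 0 (H121.Out (t : ℤ)) := by
        rw [← mul_assoc, ← ENNReal.ofReal_mul (by positivity), one_div_mul_cancel hK.ne',
          ENNReal.ofReal_one, one_mul]

/-- **ROW R6: THE ARMS OF THE TORUS LAW**, window ratio `200` -/
theorem armTor {b1 b2 a : ℝ} (_ : 0 < b1) : H285.ArmTorW b1 b2 a := by
  obtain ⟨K4, C1, hK4, hC1, hw⟩ := win (C2 := 10) (bb := max b2 1) (by norm_num)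
    (lt_of_lt_of_le one_pos (le_max_right _ _))
  obtain ⟨A1, hA1, hw⟩ := hw (2 * C1)
  refine ⟨1 / (32 * K4), by positivity, A1, fun A hA => ⟨A, fun W hW => ⟨1, 6, one_pos, ?_⟩⟩⟩
  intro N _ b hb ξ hξ y hr t ht h1 h2
  lift t to ℕ using (by omega)
  have ht' : 1 ≤ t := by exact_mod_cast ht
  have h1' : ξ / A ≤ 200 * t := by exact_mod_cast h1
  have h2' : t ≤ ξ / A := by exact_mod_cast h2
  have hA0 : 0 < A := lt_of_lt_of_le hA1 hA
  have k1 : A * t ≤ ξ := by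
    rw [mul_comm]
    exact (Nat.le_div_iff_mul_le hA0).1 h2'
  have k2 : ξ ≤ 10001 * A * t := by
    have h3 : ξ < A * (ξ / A + 1) := Nat.lt_mul_div_succ ξ hA0
    have h4 : A * (ξ / A + 1) ≤ A * (10001 * t) := Nat.mul_le_mul_left A (by omega)
    calc ξ ≤ A * (10001 * t) := h3.le.trans h4
      _ = 10001 * A * t := by ring
  obtain ⟨K, hK⟩ := hr.hd
  have hN0 : 0 < N := NeZero.pos N
  have hK1 : 1 ≤ K := by
    rcases Nat.eq_zero_or_pos K with h | h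
    · rw [h, mul_zero] at hK; omega
    · exact h
  have htξ : t ≤ ξ := le_trans (Nat.le_mul_of_pos_left t hA0) k1
  have h6 : 6 * t ≤ N := (Nat.mul_le_mul_left 6 htξ).trans hr.hK
  obtain ⟨V, hV0, hV, s0, s2, s4, sI, e2, e4, eI⟩ := hw A hA N b hb.le
    (hr.hb2.trans (le_max_left _ _)) ξ K t W hW ht' k1 k2 hK1 (by rw [hK, mul_comm]) hr.hyp.h2 0 0
  exact p_out hb hξ ht' h6 (by positivity)
    (arm_num hb.le ht' (by omega) (box_disj h6) hV hK4 hV0 s0 s2 s4 sI e2 e4 eI)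

/-- **ROW R9: THE CIRCUITS** -/
theorem circ {b1 b2 a : ℝ} (hb1 : 0 < b1) : H58.Circ b1 b2 a := H285.circ_arm hb1 (armTor hb1)

end Vale.Agent.P159.TM.H146
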