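import Vale.Agent.P159.TM.H60.Arm
import Vale.Agent.P159.TM.H77.FatTor

/-!
# P159, T1, row R6: two copies from one copy

For an odd (linear) functional `X` of one copy, `E₂ (X(h) - X(h'))² = 2 E₁ X²` and
`E₂ (X(h) - X(h'))⁴ ≤ 16 E₁ X⁴`, not normalised.
-/

open scoped ENNReal
open Finset

set_option linter.unusedSectionVars false
set_option linter.unusedDecidableInType false

namespace Vale.Agent.P159.TM.H146

open Vale.Agent.P159.TM.H60 Vale.Agent.P159.TM.H576 Vale.Agent.P159.TM.H426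
open Vale.Agent.P159 Vale.Agent.P159.H353

section gen

variable {V E : Type*} [Fintype V] [DecidableEq V] [Fintype E] [DecidableEq E]

/-- a functional of the state only -/
theorem Ex_state {S : Type*} (σ : Sys V E S) (G : (V → S) → ℝ≥0∞) :
    Ex σ (fun x _ => G x) = ∑' x, ENNReal.ofReal (σ.tot x) * G x := by
  unfold Ex
  refine tsum_congr fun x => ?_
  rw [← Finset.sum_mul, ← ENNReal.ofReal_sum_of_nonneg fun om _ => σ.wt_nonneg om x, σ.sum_wt]

variable {s t : E → V} {w : E → ℤ → ℝ} {hw0 : ∀ e n, 0 ≤ w e n}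
  {hw : ∀ e, T1.H897.LogC (w e)} {a : V → ℤ → ℝ} {ha : ∀ v n, 0 ≤ a v n}

theorem tot_two (x : V → ℤ × ℤ) : (two s t w hw0 hw a ha).tot x =
    W1h s t w a (fun v => (x v).1) * W1h s t w a (fun v => (x v).2) := by
  unfold Sys.tot W1h
  show (∏ e, w e ((x (t e)).1 - (x (s e)).1) * w e ((x (t e)).2 - (x (s e)).2)) *
    (∏ v, a v (x v).1 * a v (x v).2) = _
  rw [Finset.prod_mul_distrib, Finset.prod_mul_distrib]
  ring

theorem W1h_nonneg (hw0 : ∀ e n, 0 ≤ w e n) (ha : ∀ v n, 0 ≤ a v n) (h : V → ℤ) :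
    0 ≤ W1h s t w a h :=
  mul_nonneg (prod_nonneg fun e _ => hw0 e _) (prod_nonneg fun x _ => ha x _)

/-- the two copies are independent -/
theorem Ex_two (G : (V → ℤ) → (V → ℤ) → ℝ≥0∞) :
    Ex (two s t w hw0 hw a ha) (fun x _ => G (fun v => (x v).1) (fun v => (x v).2)) =
      ∑' h, ∑' h', ENNReal.ofReal (W1h s t w a h) * ENNReal.ofReal (W1h s t w a h') * G h h' := by
  rw [Ex_state]
  let A : (V → ℤ × ℤ) ≃ (V → ℤ) × (V → ℤ) := Equiv.arrowProdEquivProdArrow V (fun _ => ℤ) (fun _ => ℤ)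
  rw [← ENNReal.tsum_prod' (f := fun p : (V → ℤ) × (V → ℤ) => ENNReal.ofReal (W1h s t w a p.1) *
    ENNReal.ofReal (W1h s t w a p.2) * G p.1 p.2), ← A.tsum_eq]
  refine tsum_congr fun x => ?_
  rw [tot_two, ENNReal.ofReal_mul (W1h_nonneg hw0 ha _)]
  rfl

/-- integral of one copy (not normalised) -/
noncomputable def A1 (s t : E → V) (w : E → ℤ → ℝ) (a : V → ℤ → ℝ) (F : (V → ℤ) → ℝ≥0∞) : ℝ≥0∞ :=
  ∑' h, ENNReal.ofReal (W1h s t w a h) * F h

theorem Ex_two' (G : (V → ℤ) → (V → ℤ) → ℝ≥0∞) :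
    Ex (two s t w hw0 hw a ha) (fun x _ => G (fun v => (x v).1) (fun v => (x v).2)) =
      A1 s t w a fun h => A1 s t w a fun h' => G h h' := by
  rw [Ex_two]
  unfold A1
  refine tsum_congr fun h => ?_
  rw [← ENNReal.tsum_mul_left]
  exact tsum_congr fun h' => mul_assoc _ _ _

theorem A1_add (F G : (V → ℤ) → ℝ≥0∞) :
    A1 s t w a (fun h => F h + G h) = A1 s t w a F + A1 s t w a G := by
  unfold A1
  rw [← ENNReal.tsum_add]
  exact tsum_congr fun h => mul_add _ _ _

theorem A1_mul (c : ℝ≥0∞) (F : (V → ℤ) → ℝ≥0∞) :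
    A1 s t w a (fun h => c * F h) = c * A1 s t w a F := by
  unfold A1
  rw [← ENNReal.tsum_mul_left]
  exact tsum_congr fun h => by ring

theorem A1_const (c : ℝ≥0∞) : A1 s t w a (fun _ => c) = c * A1 s t w a (fun _ => 1) := by
  rw [← A1_mul]
  simp only [mul_one]

theorem A1_mono {F G : (V → ℤ) → ℝ≥0∞} (h : ∀ x, F x ≤ G x) : A1 s t w a F ≤ A1 s t w a G :=
  ENNReal.tsum_le_tsum fun x => mul_le_mul_right (h x) _

theorem W1h_neg (he : ∀ e n, w e (-n) = w e n) (hae : ∀ v n, a v (-n) = a v n) (h : V → ℤ) :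
    W1h s t w a (-h) = W1h s t w a h := by
  unfold W1h
  congr 1
  · refine prod_congr rfl fun e _ => ?_
    rw [← he]
    congr 1
    simp only [Pi.neg_apply]
    ring
  · exact prod_congr rfl fun v _ => by rw [Pi.neg_apply, hae]

theorem A1_neg (he : ∀ e n, w e (-n) = w e n) (hae : ∀ v n, a v (-n) = a v n)
    (F : (V → ℤ) → ℝ≥0∞) : A1 s t w a (fun h => F (-h)) = A1 s t w a F := by
  unfold A1
  rw [← (Equiv.neg (V → ℤ)).tsum_eq (fun h => ENNReal.ofReal (W1h s t w a h) * F h)]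
  refine tsum_congr fun h => ?_
  rw [Equiv.neg_apply, W1h_neg he hae]

/-- **second moment of the difference of two independent copies** -/
theorem two_sq (he : ∀ e n, w e (-n) = w e n) (hae : ∀ v n, a v (-n) = a v n)
    {X : (V → ℤ) → ℝ} (hX : ∀ h, X (-h) = -X h) :
    Ex (two s t w hw0 hw a ha) (fun x _ =>
        ENNReal.ofReal ((X (fun v => (x v).1) - X (fun v => (x v).2)) ^ 2)) =
      2 * (A1 s t w a (fun _ => 1) * A1 s t w a fun h => ENNReal.ofReal (X h ^ 2)) := by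
  rw [Ex_two' (fun h h' => ENNReal.ofReal ((X h - X h') ^ 2))]
  set S := A1 s t w a fun h => A1 s t w a fun h' => ENNReal.ofReal ((X h - X h') ^ 2) with hS
  have h1 : S = A1 s t w a fun h => A1 s t w a fun h' => ENNReal.ofReal ((X h + X h') ^ 2) := by
    rw [hS]
    congr 1
    funext h
    rw [← A1_neg he hae (fun h' => ENNReal.ofReal ((X h + X h') ^ 2))]
    congr 1
    funext h'
    rw [hX, sub_eq_add_neg]
  have h2 : S + S = 4 * (A1 s t w a (fun _ => 1) * A1 s t w a fun h => ENNReal.ofReal (X h ^ 2)) := by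
    conv_lhs => rw [h1]
    nth_rewrite 2 [← h1]
    rw [hS, ← A1_add]
    have e1 : ∀ h, (A1 s t w a fun h' => ENNReal.ofReal ((X h + X h') ^ 2)) +
        (A1 s t w a fun h' => ENNReal.ofReal ((X h - X h') ^ 2)) =
        2 * (ENNReal.ofReal (X h ^ 2) * A1 s t w a (fun _ => 1)) +
          2 * A1 s t w a fun h' => ENNReal.ofReal (X h' ^ 2) := by
      intro h
      rw [← A1_const, ← mul_add, ← A1_add, ← A1_add, ← A1_mul]
      congr 1
      funext h'
      rw [← ENNReal.ofReal_add (sq_nonneg _) (sq_nonneg _),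
        ← ENNReal.ofReal_add (sq_nonneg _) (sq_nonneg _),
        show (2 : ℝ≥0∞) = ENNReal.ofReal 2 by simp, ← ENNReal.ofReal_mul (by norm_num)]
      congr 1
      ring
    simp only [e1]
    rw [A1_add, A1_mul, A1_const (2 * A1 s t w a fun h' => ENNReal.ofReal (X h' ^ 2))]
    have e2 : (A1 s t w a fun h => ENNReal.ofReal (X h ^ 2) * A1 s t w a fun _ => 1) =
        A1 s t w a (fun _ => 1) * A1 s t w a fun h => ENNReal.ofReal (X h ^ 2) := by
      rw [← A1_mul]
      congr 1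
      funext h
      ring
    rw [e2]
    ring
  have h3 : 2 * S = 2 * (2 * (A1 s t w a (fun _ => 1) *
      A1 s t w a fun h => ENNReal.ofReal (X h ^ 2))) := by
    rw [two_mul S, h2]
    ring
  exact (ENNReal.mul_right_inj (by norm_num) (by norm_num)).1 h3

/-- **fourth moment of the difference of two independent copies** -/
theorem two_four (X : (V → ℤ) → ℝ) :
    Ex (two s t w hw0 hw a ha) (fun x _ =>
        ENNReal.ofReal ((X (fun v => (x v).1) - X (fun v => (x v).2)) ^ 4)) ≤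
      16 * (A1 s t w a (fun _ => 1) * A1 s t w a fun h => ENNReal.ofReal (X h ^ 4)) := by
  rw [Ex_two' (fun h h' => ENNReal.ofReal ((X h - X h') ^ 4))]
  have h1 : ∀ h, (A1 s t w a fun h' => ENNReal.ofReal ((X h - X h') ^ 4)) ≤
      8 * (ENNReal.ofReal (X h ^ 4) * A1 s t w a (fun _ => 1)) +
        8 * A1 s t w a fun h' => ENNReal.ofReal (X h' ^ 4) := by
    intro h
    rw [← A1_const, ← mul_add, ← A1_add, ← A1_mul]
    refine A1_mono fun h' => ?_
    have p4 : ∀ x : ℝ, 0 ≤ x ^ 4 := fun x => by positivity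
    rw [← ENNReal.ofReal_add (p4 _) (p4 _), show (8 : ℝ≥0∞) = ENNReal.ofReal 8 by simp,
      ← ENNReal.ofReal_mul (by norm_num)]
    apply ENNReal.ofReal_le_ofReal
    have h5 : (X h - X h') ^ 2 ≤ 2 * (X h ^ 2 + X h' ^ 2) := by nlinarith [sq_nonneg (X h + X h')]
    have h6 : ((X h - X h') ^ 2) ^ 2 ≤ (2 * (X h ^ 2 + X h' ^ 2)) ^ 2 :=
      pow_le_pow_left₀ (sq_nonneg _) h5 2
    nlinarith [sq_nonneg (X h ^ 2 - X h' ^ 2)]
  refine (A1_mono h1).trans (le_of_eq ?_)
  rw [A1_add, A1_mul, A1_const (8 * A1 s t w a fun h' => ENNReal.ofReal (X h' ^ 4))]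
  have e2 : (A1 s t w a fun h => ENNReal.ofReal (X h ^ 4) * A1 s t w a fun _ => 1) =
      A1 s t w a (fun _ => 1) * A1 s t w a fun h => ENNReal.ofReal (X h ^ 4) := by
    rw [← A1_mul]
    congr 1
    funext h
    ring
  rw [e2]
  ring

theorem two_one : Ex (two s t w hw0 hw a ha) (fun _ _ => 1) =
    A1 s t w a (fun _ => 1) * A1 s t w a (fun _ => 1) := by
  rw [Ex_two' (fun _ _ => 1), A1_const]

/-- the linear functional of the difference -/
theorem pr_two (β : V → ℝ) (x : V → ℤ × ℤ) : (two s t w hw0 hw a ha).pr β univ x =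
    (∑ v, β v * ((x v).1 : ℝ)) - ∑ v, β v * ((x v).2 : ℝ) := by
  unfold Sys.pr Sys.D
  rw [← Finset.sum_sub_distrib]
  refine Finset.sum_congr rfl fun v _ => ?_
  show β v * (((x v).1 - (x v).2 : ℤ) : ℝ) = _
  push_cast
  ring

/-- from the real numbers of one copy -/
theorem A1_real (hw0 : ∀ e n, 0 ≤ w e n) (ha : ∀ v n, 0 ≤ a v n) {F : (V → ℤ) → ℝ}
    (hF : ∀ h, 0 ≤ F h) (hs : Summable fun h => W1h s t w a h * F h) :
    (A1 s t w a fun h => ENNReal.ofReal (F h)) = ENNReal.ofReal (∑' h, W1h s t w a h * F h) := by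
  unfold A1
  rw [ENNReal.ofReal_tsum_of_nonneg (fun h => mul_nonneg (W1h_nonneg hw0 ha h) (hF h)) hs]
  exact tsum_congr fun h => (ENNReal.ofReal_mul (W1h_nonneg hw0 ha h)).symm

theorem A1_one (hw0 : ∀ e n, 0 ≤ w e n) (ha : ∀ v n, 0 ≤ a v n)
    (hs : Summable fun h => W1h s t w a h) :
    (A1 s t w a fun _ => 1) = ENNReal.ofReal (∑' h, W1h s t w a h) := by
  have := A1_real (s := s) (t := t) hw0 ha (F := fun _ => 1) (fun _ => zero_le_one)
    (by simpa using hs)
  simpa using this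

end gen

end Vale.Agent.P159.TM.H146
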